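import Vale.Agent.P281W55.Main

/-!
# P281W55: general fibres are not contained in the boundary; the final statement
-/

open scoped Manifold ContDiff
open Filter Topology Set Function
open Vale.Agent.P272.K (Chart At)
open Vale.Agent.P277Z Vale.Agent.P281 Vale.Agent.P281Z.Nt Vale.Agent.P281.H713.TZ.S
open Vale.Agent.P281Z.Top
open Vale.Agent.P281.H511.Surf (IsFibration)
open Vale.Agent.P277Z.Slc (ind_iff_surj)

noncomputable section

namespace Vale.Agent.P281W55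

theorem not_sub {n p : ℕ} {X Y : Type} [TopologicalSpace X] [ChartedSpace (Cm n) X]
    [TopologicalSpace Y] [ChartedSpace (Cm p) Y] {f : X → Y} {Δ : Set X → ℝ}
    (hf : IsFibration (Cm n) (Cm p) f Δ) :
    ∃ Q : Set Y, IsProperAn p Q ∧ ∀ y ∉ Q, ∀ D, Δ D ≠ 0 → ∃ x, f x = y ∧ x ∉ D := by
  classical
  obtain ⟨hM, -⟩ := Cio.cin _ _ X Y f Δ hf
  have := hf.manifold.1
  have := hf.manifold.2
  have := hM.connY
  have : Nonempty Y := (inferInstance : Nonempty (fbOf hf).Y.X)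
  let _ : Fintype {D : Set X | Δ D ≠ 0} := hf.snc.1.fintype
  obtain ⟨Q, hQ, hr⟩ := P281Z.genS _ p _ _ _ _ (fbOf hf).G hM.fibn.hol hM.snc
  refine ⟨Q, ⟨P281Z.Thin.ne_univ (X := Y) hQ, fun y => let ⟨r, g, a, b⟩ := hQ.1 y
    ⟨r, g, fun c => hol_iff.1 (a c), b⟩⟩, fun y hy D hD => by_contra fun c => ?_⟩
  have h1 : ∀ x, f x = y → x ∈ D := fun x hx => by_contra fun k => c ⟨x, hx, k⟩
  obtain ⟨x, hx⟩ := (hf.fibres y).1
  obtain ⟨ζ, h2, -⟩ := snc_snc hf.snc x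
  have he := at_chart (n := n) x
  have he' := at_chart (n := p) y
  let l : {l : {D : Set X | Δ D ≠ 0} // x ∈ l.1} := ⟨⟨D, hD⟩, h1 x hx⟩
  let h : {l : {D : Set X | Δ D ≠ 0} // x ∈ l.1} ⊕ Fin p → X → ℂ :=
    Sum.elim (fun l => ζ l) fun a z => chartAt (Cm p) y (f z) a
  have h3 : Slc.Ind n h x := hr y hy x hx _ he' ζ h2
  have h4 := (hasStrictFDerivAt_pi.2 fun a => (h3.1 a _ he).hasStrictFDerivAt).map_nhds_eq_of_surj
    (LinearMap.range_eq_top.2 ((ind_iff_surj _).1 (h3.2 _ he)))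
  rw [(chartAt (Cm n) x).left_inv he.2] at h4
  have h5 : ∀ᶠ w in 𝓝 (fun a => h a x), (∀ a, w (.inr a) = h (.inr a) x) → w (.inl l) = 0 := by
    refine h4.ge (eventually_map.2 ((At.ev he (p := fun z =>
      (∀ a, h (.inr a) z = h (.inr a) x) → h (.inl l) z = 0)).2 ?_))
    filter_upwards [(h2 ⟨D, hD⟩).1, hf.hol.continuous.continuousAt.eventually
      ((chartAt (Cm p) y).open_source.eventually_mem (hx.symm ▸ he'.2 : f x ∈ _))] with z k1 k2 k3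
    exact k1.2 (h1 z (((chartAt (Cm p) y).injOn k2 (hx.symm ▸ he'.2 : f x ∈ _)
      (funext k3)).trans hx))
  have h6 : Tendsto (fun τ : ℂ => update (fun a => h a x) (.inl l) τ) (𝓝 0) (𝓝 fun a => h a x) :=
    (continuous_const.update _ continuous_id).tendsto' _ _
      (update_eq_self_iff.2 ((h2 ⟨D, hD⟩).mem.2 (h1 x hx)).symm)
  obtain ⟨τ, k1, k2⟩ := (((h6.eventually h5).filter_mono nhdsWithin_le_nhds).and
    (self_mem_nhdsWithin (s := {0}ᶜ))).exists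
  exact k2 (by simpa using k1)

theorem final (n p : ℕ) (X Y : Type)
    [tX : TopologicalSpace X] [cX : ChartedSpace (Cm n) X] [tY : TopologicalSpace Y]
    [cY : ChartedSpace (Cm p) Y] (f : X → Y) (Δ : Set X → ℝ) (hf : IsFibration (Cm n) (Cm p) f Δ)
    (hX : InC n X) :
    FinDim (Cm n) (eqX (Cm n) (X := X)) ∧ FinDimB (Cm n) (Cm p) ⟨X, Y, tX, tY, cX, cY, f, Δ⟩ ∧
    ∃ H : ℕ → Set Y, (∀ k, IsProperAn p (H k)) ∧ ∀ y, (∀ k, y ∉ H k) →
      (∃ (F : Type) (_ : TopologicalSpace F) (_ : ChartedSpace (Cm (n - p)) F) (i : F → X),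
        IsFib n (n - p) f y i) ∧
      ∀ (F : Type) [TopologicalSpace F] [ChartedSpace (Cm (n - p)) F] (i : F → X),
        IsFib n (n - p) f y i → (∀ D, Δ D ≠ 0 → ∃ t, i t ∉ D) ∧
          FinDim (Cm (n - p)) (eqR (Cm n) i) ∧
          kappa (Cm (n - p)) (eqR (Cm n) i) Δ +
            kappaB (Cm n) (Cm p) ⟨X, Y, tX, tY, cX, cY, f, Δ⟩ ≤ kappa (Cm n) (eqX (Cm n)) Δ ∧
          ∀ Γ : Set Y → ℝ, J.IsSNC (Cm p) Γ → (∀ x G, Γ G ≠ 0 → f x ∈ G → ∃ D, Δ D = 1 ∧ x ∈ D) →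
            kappa (Cm (n - p)) (eqR (Cm n) i) Δ + kappa (Cm p) (eqX (Cm p)) Γ ≤
              kappa (Cm n) (eqX (Cm n)) Δ := by
  obtain ⟨h1, h2, H, h3, h4⟩ := main n p X Y f Δ hf hX
  obtain ⟨Q, h5, h6⟩ := not_sub hf
  refine ⟨h1, h2, fun k => Nat.casesOn k Q H, fun k => Nat.casesOn k h5 h3, fun y hy =>
    ⟨(h4 y fun k => hy (k + 1)).1, fun F _ _ i hi => ⟨fun D hD => ?_,
      (h4 y fun k => hy (k + 1)).2 F i hi⟩⟩⟩
  obtain ⟨x, k1, k2⟩ := h6 y (hy 0) D hD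
  obtain ⟨t, rfl⟩ := hi.2.2.ge k1
  exact ⟨t, k2⟩

end Vale.Agent.P281W55
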