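import Vale.Agent.P277Z.Luf.Hol
import Vale.Agent.P299.H908.Jet

/-!
# P281W55: sections which vanish to a high order at finitely many general points are zero
-/

open scoped Manifold ContDiff
open Filter Topology Set Metric Asymptotics
open Vale.Agent.P272.K (Cm Chart At)
open Vale.Agent.P277Z

set_option linter.unusedSectionVars false

noncomputable section

namespace Vale.Agent.P281W55

theorem schw {n h : ℕ} {f : Cm n → ℂ} {c z : Cm n} {R M : ℝ}
    (hf : ∀ z ∈ ball c R, AnalyticAt ℂ f z) (hM : ∀ z ∈ ball c R, ‖f z‖ ≤ M)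
    (h0 : f =O[𝓝 c] fun z => ‖z - c‖ ^ (h + 1)) (hz : z ∈ ball c R) :
    ‖f z‖ ≤ M * (dist z c / R) ^ (h + 1) := by
  have hfc : f c = 0 := by
    obtain ⟨C, hC⟩ := h0.bound
    simpa using hC.self_of_nhds
  have h1 : (fun w : Cm n => ‖w - c‖ ^ h * ‖w - c‖) =o[𝓝 c] fun w => ‖w - c‖ ^ h * 1 := by
    refine (isBigO_refl _ _).mul_isLittleO ?_
    rw [isLittleO_one_iff]
    exact tendsto_norm_sub_self c
  have h2 : (fun w => f w - f c) =o[𝓝 c] fun w => ‖w - c‖ ^ h := by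
    simpa [hfc] using h0.trans_isLittleO (by simpa [pow_succ] using h1)
  have h3 := Complex.dist_le_mul_div_pow_of_mapsTo_ball_of_isLittleO (R₂ := M)
    (fun w hw => (hf w hw).differentiableAt.differentiableWithinAt)
    (fun w hw => by
      rw [mem_closedBall, hfc, dist_zero_right]
      exact hM w hw) h2 hz
  rwa [hfc, dist_zero_right] at h3

variable {n : ℕ} {Z : Type} [TopologicalSpace Z] [ChartedSpace (Cm n) Z]

variable (n) in
/-- local frames of a line bundle which is trivialised on the dense open set `U` -/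
structure Frm (U : Set Z) (Fr : (Z → ℂ) → Z → Prop) : Prop where
  opn : IsOpen U
  dns : Dense U
  ex : ∀ x, ∃ θ, Fr θ x
  near : ∀ θ x, Fr θ x → ∀ᶠ y in 𝓝 x, Fr θ y
  chg : ∀ θ θ' x, Fr θ x → Fr θ' x → ∃ u, Hol n u x ∧ ∀ᶠ y in 𝓝 x, θ' y = u y * θ y
  ne : ∀ θ x, Fr θ x → x ∈ U → θ x ≠ 0

variable (n) in
/-- sections of the `d`-th power -/
def Sec (U : Set Z) (Fr : (Z → ℂ) → Z → Prop) (d : ℕ) (F : Z → ℂ) : Prop :=
  ∀ θ x, Fr θ x → ∃ b, Hol n b x ∧ ∀ᶠ y in 𝓝 x, y ∈ U → F y * θ y ^ d = b y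

variable {U : Set Z} {Fr : (Z → ℂ) → Z → Prop} {d d' : ℕ} {F F' : Z → ℂ}

theorem Sec.mul (h : Sec n U Fr d F) (h' : Sec n U Fr d' F') :
    Sec n U Fr (d + d') fun y => F y * F' y := fun θ x hx => by
  obtain ⟨b, b1, b2⟩ := h θ x hx
  obtain ⟨b', b1', b2'⟩ := h' θ x hx
  refine ⟨_, b1.mul b1', ?_⟩
  filter_upwards [b2, b2'] with y k1 k2 k3
  rw [← k1 k3, ← k2 k3]
  ring

theorem sec_const (c : ℂ) : Sec n U Fr 0 fun _ => c := fun _ x _ =>
  ⟨_, hol_const c x, .of_forall fun y _ => by simp⟩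

theorem Sec.pow (h : Sec n U Fr 1 F) (k : ℕ) : Sec n U Fr k fun y => F y ^ k := by
  induction k with
  | zero => simpa using sec_const 1
  | succ k ih => simpa [pow_succ] using ih.mul h

theorem Sec.prod {ι : Type} (s : Finset ι) {k : ι → ℕ} {f : ι → Z → ℂ}
    (h : ∀ i, Sec n U Fr (k i) (f i)) : Sec n U Fr (∑ i ∈ s, k i) fun y => ∏ i ∈ s, f i y := by
  classical
  induction s using Finset.induction_on with
  | empty => simpa using sec_const 1
  | insert i s hi ih => simpa [Finset.sum_insert hi, Finset.prod_insert hi] using (h i).mul ih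

theorem Sec.lin {ι : Type} [Fintype ι] (c : ι → ℂ) {f : ι → Z → ℂ}
    (h : ∀ i, Sec n U Fr d (f i)) : Sec n U Fr d fun y => ∑ i, c i * f i y := fun θ x hx => by
  choose b b1 b2 using fun i => h i θ x hx
  refine ⟨_, Hol.sum Finset.univ fun i _ => (hol_const (c i) x).mul (b1 i), ?_⟩
  filter_upwards [eventually_all.2 b2] with y k1 k2
  rw [Finset.sum_mul]
  exact Finset.sum_congr rfl fun i _ => by rw [← k1 i k2, mul_assoc]

variable [IsManifold 𝓘(ℂ, Cm n) ω Z]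

theorem Sec.ext (h : Frm n U Fr) (hF : Sec n U Fr d F) (θ : Z → ℂ) :
    ∃ B : Z → ℂ, ∀ y, Fr θ y → Hol n B y ∧ (y ∈ U → B y = F y * θ y ^ d) := by
  choose! b b1 b2 using hF θ
  refine ⟨fun y => b y y, fun x hx => ⟨(b1 x hx).congr ?_,
    fun k => ((b2 x hx).self_of_nhds k).symm⟩⟩
  filter_upwards [h.near θ x hx, (b1 x hx).near, (b2 x hx).eventually_nhds] with y k1 k2 k3
  refine tendsto_nhds_unique_of_frequently_eq k2.cont (b1 y k1).cont ?_
  exact ((mem_closure_iff_frequently.1 (h.dns y)).and_eventually (k3.and (b2 y k1))).mono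
    fun w k => (k.2.1 k.1).symm.trans (k.2.2 k.1)

theorem Frm.bdd (h : Frm n U Fr) {K : Set Z} (hK : IsCompact K) {θ θ' : Z → ℂ}
    (h1 : ∀ y ∈ K, Fr θ y ∧ Fr θ' y) : ∃ M : ℝ, ∀ y ∈ K, ‖θ' y‖ ≤ M * ‖θ y‖ := by
  refine hK.induction_on (p := fun s => ∃ M : ℝ, ∀ y ∈ s, ‖θ' y‖ ≤ M * ‖θ y‖) ⟨0, by simp⟩
    (fun s t hst ⟨M, hM⟩ => ⟨M, fun y hy => hM y (hst hy)⟩) ?_ fun x hx => ?_
  · rintro s t ⟨M, hM⟩ ⟨M', hM'⟩
    refine ⟨max M M', fun y hy => hy.elim (fun k => (hM y k).trans ?_) fun k => (hM' y k).trans ?_⟩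
    · exact mul_le_mul_of_nonneg_right (le_max_left _ _) (norm_nonneg _)
    · exact mul_le_mul_of_nonneg_right (le_max_right _ _) (norm_nonneg _)
  · obtain ⟨u, u1, u2⟩ := h.chg θ θ' x (h1 x hx).1 (h1 x hx).2
    refine ⟨_, mem_nhdsWithin_of_mem_nhds (u2.and (u1.cont.norm.eventually
      (gt_mem_nhds (lt_add_one ‖u x‖)))), ‖u x‖ + 1, fun y hy => ?_⟩
    rw [hy.1, norm_mul]
    exact mul_le_mul_of_nonneg_right hy.2.le (norm_nonneg _)

theorem core [T2Space Z] [CompactSpace Z] (h : Frm n U Fr) (G : Chart n Z → Z → Prop)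
    (hG : ∀ e ∈ atlas (Cm n) Z, ∀ W, IsOpen W → W.Nonempty → W ⊆ e.source ∩ U → ∃ c ∈ W, G e c) :
    ∃ (T : Finset Z) (e : Z → Chart n Z) (c : Z → Z) (θ : Z → Z → ℂ) (m0 : ℕ),
      (∀ a, At (e a) (c a) ∧ c a ∈ U ∧ G (e a) (c a) ∧ Fr (θ a) (c a)) ∧
      ∀ (d : ℕ) (F : Z → ℂ), Sec n U Fr d F →
        (∀ a ∈ T, (fun z => F ((e a).symm z) * θ a ((e a).symm z) ^ d) =O[𝓝 (e a (c a))]
          fun z => ‖z - e a (c a)‖ ^ (m0 * d + 1)) → ∀ y ∈ U, F y = 0 := by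
  choose θ hθ using h.ex
  set e : Z → Chart n Z := fun a => chartAt (Cm n) a with he
  have hat : ∀ a, At (e a) a := at_chart
  have h1 : ∀ a, ∃ r : ℝ, 0 < r ∧ ∀ z ∈ closedBall (e a a) (5 * r),
      z ∈ (e a).target ∧ Fr (θ a) ((e a).symm z) := fun a => by
    obtain ⟨ρ, hρ, k⟩ := Metric.eventually_nhds_iff_ball.1 (((e a).open_target.eventually_mem
      ((e a).map_source (hat a).2)).and ((At.ev (hat a)).2 (h.near _ _ (hθ a))))
    exact ⟨ρ / 6, by positivity, fun z hz => k z (closedBall_subset_ball (by linarith) hz)⟩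
  choose r hr hb using h1
  let V : Z → Set Z := fun a => (e a).source ∩ e a ⁻¹' ball (e a a) (r a)
  have hVo : ∀ a, IsOpen (V a) := fun a => (e a).isOpen_inter_preimage isOpen_ball
  have hVa : ∀ a, a ∈ V a := fun a => ⟨(hat a).2, mem_ball_self (hr a)⟩
  choose c hc hcG using fun a => hG (e a) (hat a).1 (V a ∩ U) ((hVo a).inter h.opn)
    (h.dns.inter_open_nonempty _ (hVo a) ⟨a, hVa a⟩) fun y hy => ⟨hy.1.1, hy.2⟩
  obtain ⟨T, -, hT⟩ := (isCompact_univ (X := Z)).elim_nhds_subcover V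
    fun a _ => (hVo a).mem_nhds (hVa a)
  let K : Z → Set Z := fun a => (e a).symm '' closedBall (e a a) (5 * r a)
  have hK : ∀ a, IsCompact (K a) := fun a => (isCompact_closedBall _ _).image_of_continuousOn
    ((e a).continuousOn_symm.mono fun z hz => (hb a z hz).1)
  have hKF : ∀ a, ∀ y ∈ K a, Fr (θ a) y := by
    rintro a _ ⟨z, hz, rfl⟩
    exact (hb a z hz).2
  have hVK : ∀ a, V a ⊆ K a := fun a y hy => ⟨e a y, closedBall_subset_closedBall
    (by linarith [hr a]) (ball_subset_closedBall hy.2), (e a).left_inv hy.1⟩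
  choose M hM using fun a a' => h.bdd ((hK a).inter (hK a')) (θ := θ a') (θ' := θ a)
    fun y hy => ⟨hKF _ _ hy.2, hKF _ _ hy.1⟩
  obtain ⟨m0, hm0⟩ : ∃ m0 : ℕ, ∀ a ∈ T, ∀ a' ∈ T, M a a' ≤ 2 ^ m0 := by
    obtain ⟨B, hB⟩ := ((T ×ˢ T).finite_toSet.image fun q : Z × Z => M q.1 q.2).bddAbove
    obtain ⟨m0, k⟩ := pow_unbounded_of_one_lt B one_lt_two
    exact ⟨m0, fun a ha a' ha' => (hB ⟨(a, a'), by simp [ha, ha'], rfl⟩).trans k.le⟩
  refine ⟨T, e, c, θ, m0, fun a => ⟨⟨(hat a).1, (hc a).1.1⟩, (hc a).2, hcG a,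
    hKF a _ (hVK a (hc a).1)⟩, fun d F hF hO => ?_⟩
  choose B hB using fun a => hF.ext h (θ a)
  let S : Set ℝ := {x | ∃ a ∈ T, ∃ y ∈ V a ∩ U, x = ‖F y * θ a y ^ d‖}
  have hS : BddAbove S := by
    refine ((T.finite_toSet.isCompact_biUnion fun a _ => (hK a).image_of_continuousOn
      (f := fun y => ‖B a y‖) fun y hy =>
        (hB a y (hKF a y hy)).1.cont.norm.continuousWithinAt).bddAbove).mono ?_
    rintro _ ⟨a, ha, y, hy, rfl⟩
    exact mem_biUnion ha ⟨y, hVK a hy.1, congrArg _ ((hB a y (hKF a y (hVK a hy.1))).2 hy.2)⟩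
  have hS0 : 0 ≤ sSup S := Real.sSup_nonneg (by rintro _ ⟨a, -, y, -, rfl⟩; exact norm_nonneg _)
  have h2 : ∀ a ∈ T, ∀ y ∈ K a, y ∈ U → ‖B a y‖ ≤ (2 ^ m0) ^ d * sSup S := fun a ha y hy hU => by
    obtain ⟨a', ha', hy'⟩ := mem_iUnion₂.1 (hT (mem_univ y))
    have k1 : ‖θ a y‖ ≤ 2 ^ m0 * ‖θ a' y‖ := (hM a a' y ⟨hy, hVK a' hy'⟩).trans
      (mul_le_mul_of_nonneg_right (hm0 a ha a' ha') (norm_nonneg _))
    have k2 := le_csSup hS ⟨a', ha', y, ⟨hy', hU⟩, rfl⟩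
    rw [norm_mul, norm_pow] at k2
    rw [(hB a y (hKF a y hy)).2 hU, norm_mul, norm_pow]
    calc ‖F y‖ * ‖θ a y‖ ^ d ≤ ‖F y‖ * (2 ^ m0 * ‖θ a' y‖) ^ d := by gcongr
      _ = (2 ^ m0) ^ d * (‖F y‖ * ‖θ a' y‖ ^ d) := by ring
      _ ≤ _ := by gcongr
  have h3 : sSup S ≤ sSup S / 2 := by
    refine Real.sSup_le ?_ (by positivity)
    rintro _ ⟨a, ha, y, hy, rfl⟩
    have k0 := hr a
    have k1 : ball (e a (c a)) (4 * r a) ⊆ ball (e a a) (5 * r a) :=
      ball_subset_ball' (by linarith [mem_ball.1 (hc a).1.2])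
    have k2 : ∀ z ∈ ball (e a (c a)) (4 * r a), At (e a) ((e a).symm z) ∧ e a ((e a).symm z) = z ∧
        Hol n (B a) ((e a).symm z) := fun z hz =>
      have k := hb a z (ball_subset_closedBall (k1 hz))
      ⟨⟨(hat a).1, (e a).map_target k.1⟩, (e a).right_inv k.1, (hB a _ k.2).1⟩
    have k3 : dist (e a y) (e a (c a)) ≤ 2 * r a := by
      linarith [dist_triangle_right (e a y) (e a (c a)) (e a a), mem_ball.1 (hc a).1.2,
        mem_ball.1 hy.1.2]
    have k4 := schw (f := fun z => B a ((e a).symm z)) (c := e a (c a)) (z := e a y)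
      (R := 4 * r a) (M := (2 ^ m0) ^ d * sSup S) (h := m0 * d)
      (fun z hz => by simpa only [(k2 z hz).2.1] using (k2 z hz).2.2 _ (k2 z hz).1)
      (fun z hz => ?_) ((hO a ha).congr' ?_ EventuallyEq.rfl) (mem_ball.2 (by linarith))
    · rw [(e a).left_inv hy.1.1, (hB a y (hKF a y (hVK a hy.1))).2 hy.2] at k4
      have k5 : dist (e a y) (e a (c a)) / (4 * r a) ≤ 1 / 2 := by
        rw [div_le_iff₀ (by positivity)]
        linarith
      calc _ ≤ _ := k4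
        _ ≤ (2 ^ m0) ^ d * sSup S * (1 / 2) ^ (m0 * d + 1) := by gcongr
        _ = sSup S / 2 := by
          rw [← pow_mul, one_div, inv_pow, pow_succ]
          field_simp
    · refine le_of_tendsto_of_frequently (k2 z hz).2.2.cont.norm ?_
      refine ((mem_closure_iff_frequently.1 (h.dns _)).and_eventually ((At.near (k2 z hz).1).and
        (((e a).continuousAt (k2 z hz).1.2).eventually (isOpen_ball.mem_nhds
          (show e a ((e a).symm z) ∈ ball (e a a) (5 * r a) from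
            (k2 z hz).2.1.symm ▸ k1 hz))))).mono fun w hw => ?_
      exact h2 a ha w ⟨e a w, ball_subset_closedBall hw.2.2, (e a).left_inv hw.2.1.2⟩ hw.1
    · refine (At.ev (p := fun y => F y * θ a y ^ d = B a y) ⟨(hat a).1, (hc a).1.1⟩).2 ?_
      filter_upwards [h.opn.mem_nhds (hc a).2, (hVo a).mem_nhds (hc a).1] with w k5 k6
      exact ((hB a w (hKF a w (hVK a k6))).2 k5).symm
  intro y hy
  obtain ⟨a, ha, hy'⟩ := mem_iUnion₂.1 (hT (mem_univ y))
  have k1 := le_csSup hS ⟨a, ha, y, ⟨hy', hy⟩, rfl⟩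
  exact (mul_eq_zero.1 (norm_le_zero_iff.1 (by linarith))).resolve_right
    (pow_ne_zero d (h.ne _ _ (hKF a y (hVK a hy')) hy))

end Vale.Agent.P281W55
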