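import Vale.Agent.P281.H713.TZ.S3
import Mathlib.LinearAlgebra.Projectivization.Basic

/-!
# P281W55: `κ` as the maximal dimension of the images of the maps given by complete linear systems
-/

open scoped Topology
open Set Filter Vale.Agent.P281 Vale.Agent.P281.H713.TZ.S

noncomputable section

namespace Vale.Agent.P281W55

/-- the complex projective space `ℙ^N` -/
abbrev PN (N : ℕ) : Type := Projectivization ℂ (Fin (N + 1) → ℂ)

/-- `W ⊆ ℙ^N` contains a complex submanifold of dimension `d`: the image of a neighbourhood of the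
origin of `ℂ^d` by a holomorphic immersion `γ` into an affine chart `x_j = 1` of `ℙ^N`. -/
def HasPiece {N : ℕ} (W : Set (PN N)) (d : ℕ) : Prop :=
  ∃ (j : Fin (N + 1)) (γ : Cm d → Fin (N + 1) → ℂ), AnalyticAt ℂ γ 0 ∧
    Function.Injective (fderiv ℂ γ 0) ∧
    ∀ᶠ t in 𝓝 (0 : Cm d), γ t j = 1 ∧ ∃ h : γ t ≠ 0, Projectivization.mk ℂ (γ t) h ∈ W

/-- The dimension of `W ⊆ ℙ^N`: the largest dimension of a complex submanifold contained in `W`. -/
def dimP {N : ℕ} (W : Set (PN N)) : WithBot ℕ∞ :=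
  ⨆ (d : ℕ) (_ : HasPiece W d), (d : WithBot ℕ∞)

/-- The image of the meromorphic map `[s_0 : ... : s_N]` to `ℙ^N`, where the `s_b` are given on `U`:
the closure, in the quotient topology of `ℙ^N`, of the set of the points `[s_0(z) : ... : s_N(z)]`,
with `z ∈ U` not a common zero of the `s_b`. -/
def img {X : Type} (U : Set X) {N : ℕ} (s : Fin (N + 1) → X → ℂ) : Set (PN N) :=
  @closure _ (TopologicalSpace.coinduced (Projectivization.mk' ℂ) inferInstance)
    {x | ∃ z ∈ U, ∃ h : (fun b => s b z) ≠ 0, x = Projectivization.mk ℂ (fun b => s b z) h}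

/-- The complement of the support of the divisor `∑ k(i) L_i`, where `L_i` has the local equations
`eqn i`. -/
def Off {X ι : Type} (eqn : ι → X → (X → ℂ) → Prop) (k : ι → ℕ) : Set X :=
  {z | ∀ i, k i ≠ 0 → ∃ g, eqn i z g ∧ g z ≠ 0}

section One

variable (E : Type) [NormedAddCommGroup E] [NormedSpace ℂ E] {X ι : Type} [TopologicalSpace X]
  [ChartedSpace E X]

/-- `s_0, ..., s_N` is a basis of `H^0(X, m (K_X + L))`, where `m L = ∑ k(i) L_i`: a section is a
meromorphic `m`-canonical form, determined by its values off the support of `L`. -/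
def IsBasis (eqn : ι → X → (X → ℂ) → Prop) (m : ℕ) (k : ι → ℕ) {N : ℕ}
    (s : Fin (N + 1) → X → ℂ) : Prop :=
  (∀ b, J.IsSection E eqn m k (s b)) ∧
    (∀ a : Fin (N + 1) → ℂ, (∀ z ∈ Off eqn k, ∑ b, a b * s b z = 0) → a = 0) ∧
    ∀ t, J.IsSection E eqn m k t → ∃ a : Fin (N + 1) → ℂ, ∀ z ∈ Off eqn k, t z = ∑ b, a b * s b z

/-- The spaces `H^0(X, m K_X + ∑ k(i) L_i)` are finite dimensional: those which are not zero have a
finite basis. -/
def FinDim (eqn : ι → X → (X → ℂ) → Prop) : Prop :=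
  ∀ (m : ℕ) (k : ι → ℕ) (t : X → ℂ), J.IsSection E eqn m k t → (∃ z ∈ Off eqn k, t z ≠ 0) →
    ∃ (N : ℕ) (s : Fin (N + 1) → X → ℂ), IsBasis E eqn m k s

/-- `κ(X, K_X + L)`, `L = ∑ c(i) L_i`: the maximal dimension of the images of the maps given by the
complete linear systems `|m (K_X + L)|`, with `m > 0` and `m L` integral (`⊥ = -∞` if they are all
empty). -/
def kappa (eqn : ι → X → (X → ℂ) → Prop) (c : ι → ℝ) : WithBot ℕ∞ :=
  ⨆ (m : ℕ) (k : ι → ℕ) (N : ℕ) (s : Fin (N + 1) → X → ℂ)
    (_ : 0 < m ∧ (∀ i, k i = m * c i) ∧ IsBasis E eqn m k s), dimP (img (Off eqn k) s)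

/-- the local equations of the divisors `D` of `X` -/
def eqX (D : Set X) (x : X) (g : X → ℂ) : Prop := J.IsLocalEq E D g x

/-- the local equations of the pull-backs, by `i : F → X`, of the divisors `D` of `X` -/
def eqR {F : Type} [TopologicalSpace F] (i : F → X) (D : Set X) (t : F) (g : F → ℂ) : Prop :=
  ∃ e, J.IsLocalEq E D e (i t) ∧ ∀ᶠ s in 𝓝 t, g s = e (i s)

end One

section Two

variable (E E' : Type) [NormedAddCommGroup E] [NormedSpace ℂ E] [NormedAddCommGroup E']
  [NormedSpace ℂ E']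

attribute [local instance] Fib.tX Fib.tY Fib.cX Fib.cY

/-- Campana's orbifold base dimension `κ(f | Δ) = inf κ(Y', K_{Y'} + B(f', Δ'))`, where
`f' : (X', Δ') → Y'` is linked to `f : (X, Δ) → Y`. -/
def kappaB (M : Fib E E') : WithBot ℕ∞ :=
  ⨅ (M' : Fib E E') (_ : Linked E E' M M'), kappa E' (eqX E') (base E E' M'.f M'.Δ)

/-- the spaces of sections are finite dimensional on the bases of all the linked fibrations -/
def FinDimB (M : Fib E E') : Prop :=
  ∀ M' : Fib E E', Linked E E' M M' → FinDim E' (eqX E' (X := M'.Y))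

end Two

end Vale.Agent.P281W55
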