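import Vale.Agent.P281W55.Img
import Vale.Agent.P281Z.Tp.Sec

/-!
# P281W55: the sections of `m (K + L)` as sections in local frames
-/

open scoped Manifold ContDiff
open Filter Topology Set Function
open Vale.Agent.P272.K (Cm Chart At jacM)
open Vale.Agent.P277Z Vale.Agent.P281 Vale.Agent.P281Z.Tp Vale.Agent.P281Z.Nt
open Vale.Agent.P277Z.Slc (isLB_can ind_iff_surj)

set_option linter.unusedSectionVars false

noncomputable section

namespace Vale.Agent.P281W55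

variable {n : ℕ} {Z ι : Type} [TopologicalSpace Z] [ChartedSpace (Cm n) Z]

variable (n) in
/-- a system of local equations -/
structure Good (eqn : ι → Z → (Z → ℂ) → Prop) : Prop where
  hol : ∀ i x g, eqn i x g → Hol n g x
  near : ∀ i x g, eqn i x g → ∀ᶠ y in 𝓝 x, eqn i y g
  dvd : ∀ i x g g', eqn i x g → eqn i x g' → ∃ u, Hol n u x ∧ ∀ᶠ y in 𝓝 x, g' y = u y * g y

/-- local equations of the components of `∑ k(i) L_i` -/
def Dat (eqn : ι → Z → (Z → ℂ) → Prop) (k : ι → ℕ) (x : Z) (T : Finset ι) (g : ι → Z → ℂ) : Prop :=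
  (∀ i, k i ≠ 0 → i ∈ T) ∧ ∀ i ∈ T, eqn i x (g i)

variable (n) in
/-- the local frames -/
def FrE (eqn : ι → Z → (Z → ℂ) → Prop) (m : ℕ) (k : ι → ℕ) (θ : Z → ℂ) (x : Z) : Prop :=
  ∃ (e : Chart n Z) (T : Finset ι) (g : ι → Z → ℂ), At e x ∧ Dat eqn k x T g ∧
    θ = fun w => (jacM e (chartAt (Cm n) w) w).det ^ m * ∏ i ∈ T, g i w ^ k i

variable {eqn : ι → Z → (Z → ℂ) → Prop} {m : ℕ} {k : ι → ℕ} {x : Z} {T T' : Finset ι}
  {g g' : ι → Z → ℂ} {s : Z → ℂ}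

theorem Dat.near (hG : Good n eqn) (h : Dat eqn k x T g) : ∀ᶠ y in 𝓝 x, Dat eqn k y T g :=
  (T.eventually_all.2 fun i hi => hG.near i x _ (h.2 i hi)).mono fun _ c => ⟨h.1, c⟩

theorem Dat.dvd (hG : Good n eqn) (h : Dat eqn k x T g) (h' : Dat eqn k x T' g') : ∃ u, Hol n u x ∧
    ∀ᶠ y in 𝓝 x, ∏ i ∈ T', g' i y ^ k i = u y * ∏ i ∈ T, g i y ^ k i := by
  classical
  have h1 : ∀ (S : Finset ι) (a : ι → ℂ), (∀ i, k i ≠ 0 → i ∈ S) →
      ∏ i ∈ S, a i ^ k i = ∏ i ∈ T ∩ T', a i ^ k i := fun S a hS =>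
    Finset.prod_congr_of_eq_on_inter
      (fun i _ c => by rw [not_not.1 fun c' => c (Finset.mem_inter.2 ⟨h.1 i c', h'.1 i c'⟩), pow_zero])
      (fun i _ c => by rw [not_not.1 fun c' => c (hS i c'), pow_zero]) fun _ _ _ => rfl
  choose! u u1 u2 using fun i (hi : i ∈ T ∩ T') =>
    hG.dvd i x _ _ (h.2 i (Finset.mem_inter.1 hi).1) (h'.2 i (Finset.mem_inter.1 hi).2)
  refine ⟨_, Hol.prod (T ∩ T') fun i hi => (u1 i hi).pow (k i), ?_⟩
  filter_upwards [(T ∩ T').eventually_all.2 u2] with y hy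
  rw [h1 T' _ h'.1, h1 T _ h.1, ← Finset.prod_mul_distrib]
  exact Finset.prod_congr rfl fun i hi => by rw [hy i hi, mul_pow]

theorem Dat.off (hG : Good n eqn) (h : Dat eqn k x T g) :
    x ∈ Off eqn k ↔ ∏ i ∈ T, g i x ^ k i ≠ 0 := by
  refine ⟨fun hx => Finset.prod_ne_zero_iff.2 fun i hi c => ?_, fun hx i hi =>
    ⟨g i, h.2 i (h.1 i hi), fun c => Finset.prod_ne_zero_iff.1 hx i (h.1 i hi)
      (by rw [c, zero_pow hi])⟩⟩
  obtain ⟨g0, k1, k2⟩ := hx i (pow_eq_zero_iff'.1 c).2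
  obtain ⟨u, -, k3⟩ := hG.dvd i x _ _ (h.2 i hi) k1
  exact k2 (by rw [k3.self_of_nhds, (pow_eq_zero_iff'.1 c).1, mul_zero])

theorem dat_of (h : J.IsSection (Cm n) eqn m k s) (x : Z) : ∃ T g, Dat eqn k x T g :=
  let ⟨T, g, _, h1, h2, _⟩ := h x
  ⟨T, g, h1, h2⟩

variable [IsManifold 𝓘(ℂ, Cm n) ω Z]

theorem dense_of (hG : Good n eqn) (hD : ∀ x, ∃ T g, Dat eqn k x T g)
    (hz : ∀ i x g, k i ≠ 0 → eqn i x g → Nz g x) : Dense (Off eqn k) := fun x => by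
  obtain ⟨T, g, h⟩ := hD x
  have h1 : Nz (fun y => ∏ i ∈ T, g i y ^ k i) x := nz_of_gen
    ((T.eventually_all.2 fun i hi => by
      by_cases c : k i = 0
      · exact .of_forall fun y => by simp [c]
      · exact ((hz i x _ c (h.2 i hi)).gen (hG.hol i x _ (h.2 i hi))).mono fun y =>
          pow_ne_zero (k i)).mono fun _ => Finset.prod_ne_zero_iff.2)
  exact mem_closure_iff_frequently.2 (((not_eventually.1 h1).and_eventually (h.near hG)).mono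
    fun y hy => (hy.2.off hG).2 hy.1)

theorem nz_of_conn [PreconnectedSpace Z] (hG : Good n eqn) (hD : ∀ x, ∃ T g, Dat eqn k x T g)
    (hne : (Off eqn k).Nonempty) (i : ι) (x : Z) (g : Z → ℂ) (hi : k i ≠ 0) (h : eqn i x g) :
    Nz g x := by
  have h0 : ∀ y g0, eqn i y g0 → Nz g0 y → ∀ g, eqn i y g → Nz g y := fun y g0 k1 k2 g k3 c =>
    let ⟨_, _, k4⟩ := hG.dvd i y _ _ k3 k1
    k2 ((k4.and c).mono fun _ k5 => by rw [k5.1, k5.2, mul_zero])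
  have h1 : IsClopen {y | ∀ g, eqn i y g → Nz g y} := by
    refine ⟨isOpen_compl_iff.1 (isOpen_iff_eventually.2 fun y hy => ?_),
      isOpen_iff_eventually.2 fun y hy => ?_⟩
    · obtain ⟨g0, k1⟩ := not_forall.1 hy
      obtain ⟨k1, k2⟩ := Classical.not_imp.1 k1
      filter_upwards [hG.near i y g0 k1, (not_not.1 k2).eventually_nhds] with w k3 k4 k5
      exact k5 g0 k3 k4
    · obtain ⟨T, g0, k1⟩ := hD y
      have k2 := k1.2 i (k1.1 i hi)
      filter_upwards [hG.near i y _ k2, (hy _ k2).near (hG.hol i y _ k2)] with w k3 k4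
      exact h0 w _ k3 k4
  obtain ⟨z, hz⟩ := hne
  obtain ⟨g0, k1, k2⟩ := hz i hi
  exact (h1.eq_univ ⟨z, h0 z g0 k1 (nz_of_ne k2)⟩).ge (mem_univ x) g h

theorem frm (hG : Good n eqn) (hD : ∀ x, ∃ T g, Dat eqn k x T g) (hd : Dense (Off eqn k)) (m : ℕ) :
    Frm n (Off eqn k) (FrE n eqn m k) where
  opn := isOpen_iff_eventually.2 fun x hx => by
    obtain ⟨T, g, h⟩ := hD x
    filter_upwards [h.near hG, (Hol.prod T fun i hi => (hG.hol i x _ (h.2 i hi)).pow (k i)).ne_near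
      ((h.off hG).1 hx)] with y k1 k2
    exact (k1.off hG).2 k2
  dns := hd
  ex x := let ⟨T, g, h⟩ := hD x; ⟨_, _, T, g, at_chart x, h, rfl⟩
  near := fun _ _ ⟨e, T, g, h1, h2, h3⟩ =>
    ((At.near h1).and (h2.near hG)).mono fun _ c => ⟨e, T, g, c.1, c.2, h3⟩
  chg := by
    rintro _ _ x ⟨e, T, g, h1, h2, rfl⟩ ⟨e', T', g', h1', h2', rfl⟩
    obtain ⟨u, u1, u2⟩ := h2.dvd hG h2'
    refine ⟨fun w => (jacM e' e w).det ^ m * u w,
      ((P281Z.lb_hol isLB_can h1' h1).pow m).mul u1, ?_⟩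
    filter_upwards [u2, At.near h1, At.near h1'] with y k1 k2 k3
    rw [k1, ← jac_mul k3 k2 (at_chart y)]
    ring
  ne := by
    rintro _ x ⟨e, T, g, h1, h2, rfl⟩ hx
    exact mul_ne_zero (jac_ne h1 (at_chart x)) ((h2.off hG).1 hx)

theorem sec_of (hG : Good n eqn) (h : J.IsSection (Cm n) eqn m k s) :
    Sec n (Off eqn k) (FrE n eqn m k) 1 s := by
  rintro _ x ⟨e, T, g, h1, h2, rfl⟩
  obtain ⟨T', g', b, k1, k2, k3, k4⟩ := sec_loc h h1
  obtain ⟨u, u1, u2⟩ := Dat.dvd hG ⟨k1, k2⟩ h2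
  refine ⟨_, u1.mul k3, ?_⟩
  filter_upwards [k4, u2, Dat.near hG ⟨k1, k2⟩] with y c1 c2 c3 c4
  rw [← c1 ((c3.off hG).1 c4), c2, fr]
  ring

theorem of_sec (hG : Good n eqn) (hD : ∀ x, ∃ T g, Dat eqn k x T g)
    (h : Sec n (Off eqn k) (FrE n eqn m k) 1 s) : J.IsSection (Cm n) eqn m k s := fun x => by
  obtain ⟨T, g, h1⟩ := hD x
  obtain ⟨b, b1, b2⟩ := h _ x ⟨_, T, g, at_chart x, h1, rfl⟩
  refine ⟨T, g, b, h1.1, h1.2, hol_iff.1 b1, ?_⟩
  filter_upwards [b2, h1.near hG, At.near (at_chart (n := n) x)] with y c1 c2 c3 c4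
  have c5 := jac_mul c3 (at_chart y) c3
  have c6 : (jacM (chartAt (Cm n) x) (chartAt (Cm n) x) y).det = 1 :=
    P281Z.lb_self isLB_can c3
  rw [← c1 ((c2.off hG).2 c4), det_mfd c3]
  calc _ = s y * (∏ i ∈ T, g i y ^ k i) * 1 ^ m := by simp
    _ = _ := by
      rw [← c6, ← c5]
      ring

theorem surj_iff {d : ℕ} {h : Fin d → Z → ℂ} (hh : ∀ a, Hol n (h a) x) {e : Chart n Z}
    (he : At e x) : Surjective (fderiv ℂ (fun (z : Cm n) a => h a (e.symm z)) (e x)) ↔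
      Surjective fun (ξ : Cm n) a => J.dif (Cm n) (h a) x ξ := by
  rw [fderiv_pi fun a => (hh a e he).differentiableAt, ← ind_iff hh]
  exact ⟨fun c => .of_chart hh he ((ind_iff_surj _).2 c), fun c => (ind_iff_surj _).1 (c.2 e he)⟩

end Vale.Agent.P281W55
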