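import Vale.Agent.P281W55.Sieg
import Vale.Agent.P281W55.Defs

/-!
# P281W55: the dimension of the image is the maximal rank
-/

open scoped Manifold ContDiff
open Filter Topology Set Function
open Vale.Agent.P272.K (Cm Chart At)
open Vale.Agent.P277Z

set_option linter.unusedSectionVars false

noncomputable section

namespace Vale.Agent.P281W55

theorem img_sub {X : Type} {U : Set X} {N : ℕ} {s : Fin (N + 1) → X → ℂ}
    {g : (Fin (N + 1) → ℂ) → Prop} (hg : IsClosed {v | g v})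
    (hsm : ∀ v (a : ℂ), a ≠ 0 → g v → g (a • v)) (h : ∀ z ∈ U, g fun b => s b z)
    {v : Fin (N + 1) → ℂ} (hv : v ≠ 0) (hm : Projectivization.mk ℂ v hv ∈ img U s) : g v := by
  have h1 : ∀ v hv, g (Projectivization.mk ℂ v hv).rep ↔ g v := fun v hv => by
    obtain ⟨a, ha⟩ := Projectivization.exists_smul_eq_mk_rep ℂ v hv
    rw [← ha]
    refine ⟨fun k => ?_, hsm v a a.ne_zero⟩
    have := hsm _ (a⁻¹ : ℂˣ) (Units.ne_zero _) k
    rwa [← Units.smul_def, inv_smul_smul] at this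
  let _ : TopologicalSpace (PN N) :=
    TopologicalSpace.coinduced (Projectivization.mk' ℂ) inferInstance
  refine (h1 v hv).1 (closure_minimal (t := {x : PN N | g x.rep}) ?_ ?_ hm)
  · rintro _ ⟨z, hz, k, rfl⟩
    exact (h1 _ k).2 (h z hz)
  · refine isClosed_coinduced.2 ?_
    convert hg.preimage (continuous_subtype_val (p := fun v : Fin (N + 1) → ℂ => v ≠ 0)) using 1
    exact Set.ext fun v => h1 v.1 v.2

theorem mem_img {X : Type} {U : Set X} {N : ℕ} {s : Fin (N + 1) → X → ℂ} {z : X} (hz : z ∈ U)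
    {j : Fin (N + 1)} (k : s j z ≠ 0) : ∃ h : (fun b => s b z / s j z) ≠ 0,
      Projectivization.mk ℂ (fun b => s b z / s j z) h ∈ img U s := by
  have h1 : (fun b => s b z / s j z) ≠ 0 := fun c => div_ne_zero k k (congrFun c j)
  let _ : TopologicalSpace (PN N) :=
    TopologicalSpace.coinduced (Projectivization.mk' ℂ) inferInstance
  refine ⟨h1, subset_closure ⟨z, hz, fun c => k (congrFun c j),
    (Projectivization.mk_eq_mk_iff' ℂ _ _ _ _).2 ⟨(s j z)⁻¹, funext fun b => ?_⟩⟩⟩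
  simp [div_eq_inv_mul]

variable {n : ℕ} {Z : Type} [TopologicalSpace Z] [ChartedSpace (Cm n) Z]
  {U : Set Z} {Fr : (Z → ℂ) → Z → Prop} {N d : ℕ} {s : Fin (N + 1) → Z → ℂ} {t0 : Z → ℂ}
  {t : Fin d → Z → ℂ}

theorem lower (h : Frm n U Fr) (hs : ∀ b, Sec n U Fr 1 (s b)) (a0 : Fin (N + 1) → ℂ)
    (a : Fin d → Fin (N + 1) → ℂ) (h0 : ∀ y ∈ U, t0 y = ∑ b, a0 b * s b y)
    (ht : ∀ i, ∀ y ∈ U, t i y = ∑ b, a i b * s b y) {e : Chart n Z} {x : Z} (he : At e x)
    (hx : x ∈ U) (k : t0 x ≠ 0)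
    (hr : Surjective (fderiv ℂ (fun (z : Cm n) i => t i (e.symm z) / t0 (e.symm z)) (e x))) :
    HasPiece (img U s) d := by
  obtain ⟨j, hj⟩ : ∃ j, s j x ≠ 0 := by
    by_contra! c
    exact k ((h0 x hx).trans (by simp [c]))
  let Γ : Cm n → Fin (N + 1) → ℂ := fun z b => s b (e.symm z) / s j (e.symm z)
  let Λ : (Fin (N + 1) → ℂ) → Cm d := fun v i => (∑ b, a i b * v b) / ∑ b, a0 b * v b
  have h1 : AnalyticAt ℂ Γ (e x) := analyticAt_pi_iff.2 fun b =>
    (hs b).quot h (hs j) hx hj e he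
  have h2 : ∀ (c : Fin (N + 1) → ℂ) z, ∑ b, c b * Γ z b =
      (∑ b, c b * s b (e.symm z)) / s j (e.symm z) := fun c z => by
    simp only [Γ, Finset.sum_div, mul_div_assoc]
  have h3 : DifferentiableAt ℂ Λ (Γ (e x)) := differentiableAt_pi.2 fun i => by
    have k1 : ∑ b, a0 b * Γ (e x) b ≠ 0 := by
      rw [h2, e.left_inv he.2, ← h0 x hx]
      exact div_ne_zero k hj
    simp only [Λ]
    fun_prop (disch := assumption)
  have h4 : ∀ᶠ z in 𝓝 (e x), e.symm z ∈ U ∧ s j (e.symm z) ≠ 0 :=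
    (At.ev he (p := fun y => y ∈ U ∧ s j y ≠ 0)).2
      ((h.opn.eventually_mem hx).and ((hs j).ne_near h hx hj))
  have h5 : (fun (z : Cm n) i => t i (e.symm z) / t0 (e.symm z)) =ᶠ[𝓝 (e x)] Λ ∘ Γ :=
    h4.mono fun z hz => funext fun i => by
      simp only [comp, Λ, h2, ← h0 _ hz.1, ← ht i _ hz.1, div_div_div_cancel_right₀ hz.2]
  rw [h5.fderiv_eq, fderiv_comp _ h3 h1.differentiableAt] at hr
  obtain ⟨R, hR⟩ := ContinuousLinearMap.exists_rightInverse_of_surjective _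
    (LinearMap.range_eq_top.2 hr)
  have h6 : HasFDerivAt (fun τ : Cm d => e x + R τ) R 0 := R.hasFDerivAt.const_add _
  have h7 : e x + R 0 = e x := by simp
  refine ⟨j, Γ ∘ fun τ => e x + R τ, h1.comp_of_eq (analyticAt_const.add (R.analyticAt 0)) h7,
    ?_, ?_⟩
  · rw [(HasFDerivAt.comp (0 : Cm d) (g := Γ) (h7.symm ▸ h1.differentiableAt.hasFDerivAt)
      h6).fderiv, h7]
    refine Injective.of_comp (f := fderiv ℂ Λ (Γ (e x))) fun u v huv => ?_
    exact (ContinuousLinearMap.ext_iff.1 hR u).symm.trans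
      (huv.trans (ContinuousLinearMap.ext_iff.1 hR v))
  · filter_upwards [h6.continuousAt.eventually (h7.symm ▸ h4)] with τ hτ
    exact ⟨div_self hτ.2, mem_img hτ.1 hτ.2⟩

variable [IsManifold 𝓘(ℂ, Cm n) ω Z] [T2Space Z] [CompactSpace Z]

theorem siegel' (h : Frm n U Fr) (h0 : Sec n U Fr 1 t0) (ht : ∀ i, Sec n U Fr 1 (t i))
    (hr : ∀ e x, At e x → x ∈ U → t0 x ≠ 0 →
      ¬ Surjective (fderiv ℂ (fun (z : Cm n) i => t i (e.symm z) / t0 (e.symm z)) (e x))) :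
    ∃ (q : ℕ) (c : (Fin d → Fin q) → ℂ), c ≠ 0 ∧ ∀ y ∈ U, t0 y ≠ 0 →
      ∑ β, c β * ∏ i, (t i y / t0 y) ^ (β i : ℕ) = 0 := by
  cases d with
  | zero => exact ⟨1, 1, one_ne_zero, fun y hy k => (hr _ y (at_chart y) hy k
      fun v => ⟨0, Subsingleton.elim _ _⟩).elim⟩
  | succ r => exact siegel h h0 ht hr

theorem upper (h : Frm n U Fr) (hs : ∀ b, Sec n U Fr 1 (s b)) (hd : HasPiece (img U s) d) :
    ∃ (j : Fin (N + 1)) (a : Fin d → Fin (N + 1) → ℂ) (e : Chart n Z) (x : Z), At e x ∧ x ∈ U ∧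
      s j x ≠ 0 ∧ Surjective (fderiv ℂ (fun (z : Cm n) i =>
        (∑ b, a i b * s b (e.symm z)) / s j (e.symm z)) (e x)) := by
  obtain ⟨j, γ, h1, h2, h3⟩ := hd
  obtain ⟨Λ, hΛ⟩ := (fderiv ℂ γ 0 : Cm d →ₗ[ℂ] Fin (N + 1) → ℂ).exists_leftInverse_of_injective
    (LinearMap.ker_eq_bot.2 h2)
  have h4 : ∀ v i, Λ v i = ∑ b, Λ (Pi.single b 1) i * v b := fun v i => by
    conv_lhs => rw [pi_eq_sum_univ' v]
    simp [mul_comm]
  by_contra c
  obtain ⟨q, c, c1, c2⟩ := siegel' h (hs j)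
    (fun i => Sec.lin (fun b => Λ (Pi.single b 1) i) hs) fun e x he hx k k' =>
      c ⟨j, fun i b => Λ (Pi.single b 1) i, e, x, he, hx, k, k'⟩
  let L := LinearMap.toContinuousLinearMap Λ
  have h5 : HasStrictFDerivAt (fun τ => L (γ τ)) (L.comp (fderiv ℂ γ 0)) 0 :=
    L.hasStrictFDerivAt.comp 0 h1.hasStrictFDerivAt
  refine poly_ne c1 (L (γ 0)) ?_
  rw [← h5.map_nhds_eq_of_surj (LinearMap.range_eq_top.2 fun v => ⟨v, LinearMap.congr_fun hΛ v⟩),
    eventually_map]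
  filter_upwards [h3] with τ ⟨k1, k2, k3⟩
  have h6 := img_sub (g := fun v => v j ≠ 0 → ∑ β, c β * ∏ i, (L v i / v j) ^ (β i : ℕ) = 0)
    ?_ (fun v a ha k k' => ?_) (fun z hz k => ?_) k2 k3 (by simp [k1])
  · simpa [k1] using h6
  · refine isOpen_compl_iff.1 (isOpen_iff_eventually.2 fun v hv => ?_)
    simp only [mem_compl_iff, mem_ofPred_eq, Classical.not_imp] at hv ⊢
    refine ((continuous_apply j).continuousAt.eventually_ne hv.1).and
      (ContinuousAt.eventually_ne ?_ hv.2)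
    have := hv.1
    fun_prop (disch := assumption)
  · simp only [map_smul, Pi.smul_apply, smul_eq_mul, mul_div_mul_left _ _ ha] at k' ⊢
    exact k (right_ne_zero_of_mul k')
  · have := c2 z hz k
    simp only [← h4] at this
    exact this

end Vale.Agent.P281W55
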