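import Vale.Agent.P281W55.Dict
import Vale.Agent.P281.MF.Div
import Vale.Agent.P281Z.All2

/-!
# P281W55: the two definitions of `κ` agree on compact manifolds
-/

open scoped Manifold ContDiff
open Filter Topology Set Function
open Vale.Agent.P272.K (Chart At)
open Vale.Agent.P277Z Vale.Agent.P281 Vale.Agent.P281Z.Nt Vale.Agent.P281.H713.TZ.S
open Vale.Agent.P281Z.Top
open Vale.Agent.P281.H511.Surf (IsFibration)

set_option linter.unusedSectionVars false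

noncomputable section

namespace Vale.Agent.P281W55

section One

variable {n : ℕ} {Z ι : Type} [TopologicalSpace Z] [ChartedSpace (Cm n) Z]
  [IsManifold 𝓘(ℂ, Cm n) ω Z] [T2Space Z] [CompactSpace Z] {eqn : ι → Z → (Z → ℂ) → Prop}

/-- the complement of the support is dense -/
def Dn (eqn : ι → Z → (Z → ℂ) → Prop) : Prop :=
  ∀ k, (∀ x, ∃ T g, Dat eqn k x T g) → (Off eqn k).Nonempty → Dense (Off eqn k)

theorem finDim (hG : Good n eqn) (hd : Dn eqn) : FinDim (Cm n) eqn := by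
  classical
  rintro m k t ht ⟨z, hz, hz0⟩
  have hD := dat_of ht
  obtain ⟨K, hK⟩ := dep (frm hG hD (hd k hD ⟨z, hz⟩) m)
  let P : ℕ → Prop := fun N => ∃ s : Fin (N + 1) → Z → ℂ,
    (∀ b, J.IsSection (Cm n) eqn m k (s b)) ∧
      ∀ a : Fin (N + 1) → ℂ, (∀ z ∈ Off eqn k, ∑ b, a b * s b z = 0) → a = 0
  have h1 : ∀ N, P N → N ≤ K := fun N ⟨s, s1, s2⟩ => not_lt.1 fun c =>
    let ⟨a, a1, a2⟩ := hK (N + 1) (by omega) s fun b => sec_of hG (s1 b)
    a1 (s2 a a2)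
  have h2 : P 0 := ⟨fun _ => t, fun _ => ht, fun a ha => funext fun b => by
    have := ha z hz
    rw [Subsingleton.elim (α := Fin 1) b 0]
    simpa [hz0] using this⟩
  obtain ⟨s, s1, s2⟩ := Nat.findGreatest_spec (Nat.zero_le K) h2
  refine ⟨_, s, s1, s2, fun t' ht' => ?_⟩
  have h3 : ¬ P (Nat.findGreatest P K + 1) := fun c =>
    (Nat.le_findGreatest (h1 _ c) c).not_gt (Nat.lt_succ_self _)
  obtain ⟨a, a1⟩ := not_forall.1 fun c => h3 ⟨Fin.cons t' s, Fin.cases ht' s1, c⟩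
  obtain ⟨a1, a2⟩ := Classical.not_imp.1 a1
  simp only [Fin.sum_univ_succ (n := Nat.findGreatest P K + 1), Fin.cons_zero, Fin.cons_succ] at a1
  have h4 : a 0 ≠ 0 := fun c => a2 (funext (Fin.cases c (congrFun (s2 (fun b => a b.succ)
    fun z hz => by simpa [c] using a1 z hz))))
  refine ⟨fun b => -(a 0)⁻¹ * a b.succ, fun z hz => ?_⟩
  simp only [mul_assoc, ← Finset.mul_sum]
  rw [eq_neg_of_add_eq_zero_right (a1 z hz)]
  field_simp

theorem kappa_le (hG : Good n eqn) (hd : Dn eqn) (c : ι → ℝ) :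
    kappa (Cm n) eqn c ≤ J.kod (Cm n) eqn c := by
  refine iSup_le fun m => iSup_le fun k => iSup_le fun N => iSup₂_le fun s ⟨hm, hk, hB⟩ =>
    iSup₂_le fun d hp => ?_
  have hD := dat_of (hB.1 0)
  have h := frm hG hD (hd k hD (by_contra fun c =>
    one_ne_zero (hB.2.1 1 fun z hz => (c ⟨z, hz⟩).elim))) m
  have hs := fun b => sec_of hG (hB.1 b)
  obtain ⟨j, a, e, x, h1, h2, h3, h4⟩ := upper h hs hp
  refine le_iSup₂_of_le d ⟨m, k, fun b => Nat.casesOn b (s j) fun b =>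
    if h : b < d then fun y => ∑ b', a ⟨b, h⟩ b' * s b' y else s j, x, hm, hk, fun b => ?_, h2, h3,
    ?_⟩ le_rfl
  · cases b with
    | zero => exact hB.1 j
    | succ b =>
      show J.IsSection _ _ _ _ (if h : b < d then _ else _)
      split_ifs
      exacts [of_sec hG hD (Sec.lin _ hs), hB.1 j]
  · simp only [Fin.is_lt, dif_pos, Fin.eta]
    exact (surj_iff (fun i => (Sec.lin (a i) hs).quot h (hs j) h2 h3) h1).1 h4

theorem le_kappa (hG : Good n eqn) (hd : Dn eqn) (c : ι → ℝ) :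
    J.kod (Cm n) eqn c ≤ kappa (Cm n) eqn c := by
  refine iSup₂_le fun j ⟨m, k, σ, x, hm, hk, h1, h2, h3, h4⟩ => ?_
  have hD := dat_of (h1 0)
  have h := frm hG hD (hd k hD ⟨x, h2⟩) m
  obtain ⟨N, s, hB⟩ := finDim hG hd m k _ (h1 0) ⟨x, h2, h3⟩
  choose a ha using fun b => hB.2.2 _ (h1 b)
  refine le_iSup_of_le m (le_iSup_of_le k (le_iSup_of_le N (le_iSup₂_of_le s ⟨hm, hk, hB⟩
    (le_iSup₂_of_le j ?_ le_rfl))))
  exact lower h (fun b => sec_of hG (hB.1 b)) (a 0) (fun i : Fin j => a (i + 1)) (ha 0)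
    (fun i => ha _) (at_chart x) h2 h3 ((surj_iff (fun i : Fin j =>
      (sec_of hG (h1 (i + 1))).quot h (sec_of hG (h1 0)) h2 h3) (at_chart x)).2 h4)

omit [T2Space Z] [CompactSpace Z] in
theorem goodX : Good n (eqX (Cm n) (X := Z)) where
  hol _ _ _ h := loc_hol h
  near _ _ _ h := loc_near h
  dvd _ _ _ _ h h' :=
    let ⟨u, u1, _, u2⟩ := MF.leq_unit (E := Cm n) h h'
    ⟨u, hol_iff.2 u1, u2.mono fun _ c => c.trans (mul_comm _ _)⟩

omit [T2Space Z] [CompactSpace Z] in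
theorem dnX : Dn (eqX (Cm n) (X := Z)) := fun _ hD _ =>
  dense_of goodX hD fun _ _ _ _ h => loc_nz h

variable {d : ℕ} {F : Type} [TopologicalSpace F] [ChartedSpace (Cm d) F]
  [IsManifold 𝓘(ℂ, Cm d) ω F] {i : F → Z}

omit [T2Space Z] [CompactSpace Z] in
theorem goodR (hi : ContMDiff 𝓘(ℂ, Cm d) 𝓘(ℂ, Cm n) ω i) : Good d (eqR (Cm n) i) where
  hol _ t _ := fun ⟨_, h1, h2⟩ => (hol_iff.2 (ContMDiffAt.comp t (hol_iff.1 (loc_hol h1))
    (hi t))).congr (h2.mono fun _ => Eq.symm)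
  near _ _ _ := fun ⟨e, h1, h2⟩ => ((hi.continuous.continuousAt.eventually (loc_near h1)).and
    h2.eventually_nhds).mono fun _ c => ⟨e, c.1, c.2⟩
  dvd _ t _ _ := fun ⟨_, h1, h2⟩ ⟨_, h1', h2'⟩ => by
    obtain ⟨u, u1, u2⟩ := goodX.dvd _ _ _ _ h1 h1'
    refine ⟨u ∘ i, hol_iff.2 (ContMDiffAt.comp t (hol_iff.1 u1) (hi t)), ?_⟩
    filter_upwards [h2, h2', hi.continuous.continuousAt.eventually u2] with y k1 k2 k3
    rw [k1, k2, k3]
    rfl

omit [T2Space Z] [CompactSpace Z] in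
theorem dnR [PreconnectedSpace F] (hi : ContMDiff 𝓘(ℂ, Cm d) 𝓘(ℂ, Cm n) ω i) :
    Dn (eqR (Cm n) i) := fun _ hD hne =>
  dense_of (goodR hi) hD (nz_of_conn (goodR hi) hD hne)

end One

attribute [local instance] Fib.tX Fib.tY Fib.cX Fib.cY

variable {n p : ℕ}

/-- the base is a compact manifold -/
def Cp (M : Fib (Cm n) (Cm p)) : Prop :=
  T2Space M.Y ∧ CompactSpace M.Y ∧ IsManifold 𝓘(ℂ, Cm p) ω M.Y

theorem cp_iff {M M' : Fib (Cm n) (Cm p)} (h : Linked (Cm n) (Cm p) M M') : Cp M ↔ Cp M' := by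
  induction h with
  | rel A B h =>
    obtain ⟨-, v, -, ⟨⟨h1, h2, h3, h4⟩, -, h5, U, -, h6, -, h7⟩, -⟩ := h
    refine ⟨fun k => ⟨h1, ⟨?_⟩, h3⟩, fun k => ⟨h2, ⟨?_⟩, h4⟩⟩
    · have := k.2.1
      rw [← (h6.mono fun x hx => (h7 x hx).exists : Dense (range v)).closure_eq,
        h5.isClosedMap.isClosed_range.closure_eq]
      exact isCompact_range h5.continuous
    · exact h5.isCompact_preimage k.2.1.1
  | refl => rfl
  | symm _ _ _ h => exact h.symm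
  | trans _ _ _ _ _ h h' => exact h.trans h'

theorem main (n p : ℕ) (X Y : Type)
    [tX : TopologicalSpace X] [cX : ChartedSpace (Cm n) X] [tY : TopologicalSpace Y]
    [cY : ChartedSpace (Cm p) Y] (f : X → Y) (Δ : Set X → ℝ) (hf : IsFibration (Cm n) (Cm p) f Δ)
    (hX : InC n X) :
    FinDim (Cm n) (eqX (Cm n) (X := X)) ∧ FinDimB (Cm n) (Cm p) ⟨X, Y, tX, tY, cX, cY, f, Δ⟩ ∧
    ∃ H : ℕ → Set Y, (∀ k, IsProperAn p (H k)) ∧ ∀ y, (∀ k, y ∉ H k) →
      (∃ (F : Type) (_ : TopologicalSpace F) (_ : ChartedSpace (Cm (n - p)) F) (i : F → X),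
        IsFib n (n - p) f y i) ∧
      ∀ (F : Type) [TopologicalSpace F] [ChartedSpace (Cm (n - p)) F] (i : F → X),
        IsFib n (n - p) f y i → FinDim (Cm (n - p)) (eqR (Cm n) i) ∧
          kappa (Cm (n - p)) (eqR (Cm n) i) Δ +
            kappaB (Cm n) (Cm p) ⟨X, Y, tX, tY, cX, cY, f, Δ⟩ ≤ kappa (Cm n) (eqX (Cm n)) Δ ∧
          ∀ Γ : Set Y → ℝ, J.IsSNC (Cm p) Γ → (∀ x G, Γ G ≠ 0 → f x ∈ G → ∃ D, Δ D = 1 ∧ x ∈ D) →
            kappa (Cm (n - p)) (eqR (Cm n) i) Δ + kappa (Cm p) (eqX (Cm p)) Γ ≤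
              kappa (Cm n) (eqX (Cm n)) Δ := by
  obtain ⟨H, h1, h2⟩ := P281Z.All.final n p X Y f Δ hf (P281Z.All.fujiki hf hX)
  have := hf.hausdorff.1
  have := hf.hausdorff.2
  have := hf.compact
  have := hf.manifold.1
  have := hf.manifold.2
  have : CompactSpace Y := ⟨by
    rw [← (show Surjective f from fun y => (hf.fibres y).1).range_eq]
    exact isCompact_range hf.hol.continuous⟩
  have h3 : ∀ M', Linked (Cm n) (Cm p) ⟨X, Y, tX, tY, cX, cY, f, Δ⟩ M' → Cp M' := fun M' h =>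
    (cp_iff h).1 ⟨‹_›, ‹_›, ‹_›⟩
  refine ⟨finDim goodX dnX, fun M' h => let ⟨_, _, _⟩ := h3 M' h; finDim goodX dnX, H, h1,
    fun y hy => ⟨(h2 y hy).1, fun F _ _ i hi => ?_⟩⟩
  obtain ⟨h4, h5⟩ := (h2 y hy).2 F i hi
  have := hi.1.compact
  have := hi.1.connected
  have := hi.1.manifold
  have : T2Space F := T2Space.of_injective_continuous hi.2.1 hi.1.hol.continuous
  have h6 := kappa_le (goodR hi.1.hol) (dnR hi.1.hol) Δ
  have h7 := le_kappa (goodX (n := n)) dnX Δ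
  refine ⟨finDim (goodR hi.1.hol) (dnR hi.1.hol), ((add_le_add h6 ?_).trans h4).trans h7,
    fun Γ k1 k2 => ((add_le_add h6 (kappa_le goodX dnX Γ)).trans (h5 Γ k1 k2)).trans h7⟩
  exact iInf₂_mono fun M' h => let ⟨_, _, _⟩ := h3 M' h; kappa_le goodX dnX _

end Vale.Agent.P281W55
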