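import Vale.Agent.P281W55.Core
import Vale.Agent.P299.H908.Siegel
import Vale.Agent.P284.H619.NF

/-!
# P281W55: finiteness of the spaces of sections, and the theorem of Siegel and Thimm with ranks
-/

open scoped Manifold ContDiff
open Filter Topology Set Metric Asymptotics Function
open Vale.Agent.P272.K (Cm Chart At)
open Vale.Agent.P277Z Vale.Agent.P299.H908

set_option linter.unusedSectionVars false

noncomputable section

namespace Vale.Agent.P281W55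

theorem bigO_of_jet {r h : ℕ} {f : Cm r → ℂ} {w : Cm r} (hf : AnalyticAt ℂ f w)
    (hj : ∀ α : Fin r → Fin h, jet α w f = 0) : f =O[𝓝 w] fun z => ‖z - w‖ ^ h := by
  have h0 := iteratedFDeriv_eq_zero_of_jet hf hj
  obtain ⟨p, ρ, hp⟩ := hf
  have h2 : ∀ y, p.partialSum h y = 0 := fun y => Finset.sum_eq_zero fun k hk => by
    have h3 := hp.factorial_smul y k
    rw [h0 k (Finset.mem_range.1 hk), nsmul_eq_mul] at h3
    exact (mul_eq_zero.1 h3).resolve_left (by exact_mod_cast k.factorial_ne_zero)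
  have h3 : Tendsto (fun z : Cm r => z - w) (𝓝 w) (𝓝 0) :=
    (continuous_id.sub continuous_const).tendsto' w 0 (by simp)
  simpa [h2, Function.comp_def] using
    (hp.hasFPowerSeriesAt.isBigO_sub_partialSum_pow h).comp_tendsto h3

theorem kill {A I : Type} [Fintype A] [Fintype I] {r h : ℕ} (w : A → Cm r)
    (f : A → I → Cm r → ℂ) (hf : ∀ a β, AnalyticAt ℂ (f a β) (w a))
    (hc : Fintype.card A * h ^ r < Fintype.card I) : ∃ c : I → ℂ, c ≠ 0 ∧
      ∀ a, (fun z => ∑ β, c β * f a β z) =O[𝓝 (w a)] fun z => ‖z - w a‖ ^ h := by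
  classical
  let Φ : (I → ℂ) →ₗ[ℂ] (A × (Fin r → Fin h) → ℂ) :=
    Matrix.toLin' (Matrix.of fun (q : A × (Fin r → Fin h)) (β : I) => jet q.2 (w q.1) (f q.1 β))
  obtain ⟨c, hc1, hc0⟩ := (Submodule.ne_bot_iff _).1 (LinearMap.ker_ne_bot_of_finrank_lt (f := Φ)
    (by simpa using hc))
  refine ⟨c, hc0, fun a => bigO_of_jet (Finset.analyticAt_fun_sum _ fun β _ =>
    analyticAt_const.mul (hf a β)) fun α => ?_⟩
  have h1 := congrFun (LinearMap.mem_ker.1 hc1) (a, α)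
  simp only [Φ, Matrix.toLin'_apply, Matrix.mulVec, dotProduct, Matrix.of_apply,
    Pi.zero_apply] at h1
  rw [jet_sum α (w a) Finset.univ c (f a) fun β _ => hf a β, ← h1]
  exact Finset.sum_congr rfl fun β _ => mul_comm _ _

theorem gen_flat {n r : ℕ} {W : Set (Cm n)} (hW : IsOpen W) (hne : W.Nonempty)
    {φ : Cm n → Cm (r + 1)} (hφ : ∀ z ∈ W, AnalyticAt ℂ φ z)
    (hr : ∀ z ∈ W, ¬ Surjective (fderiv ℂ φ z)) : ∃ z ∈ W, ∃ (β : Cm n → Cm r)
      (ψ : Cm r → Cm (r + 1)), AnalyticAt ℂ β z ∧ AnalyticAt ℂ ψ (β z) ∧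
        ∀ᶠ w in 𝓝 z, φ w = ψ (β w) := by
  let A := EuclideanSpace.equiv (Fin (r + 1)) ℂ
  let rk : Cm n → ℕ := fun z => Module.finrank ℂ (LinearMap.range
    (fderiv ℂ (A.symm ∘ φ) z : Cm n →ₗ[ℂ] EuclideanSpace ℂ (Fin (r + 1))))
  have h1 : ∀ z ∈ W, rk z ≤ r := fun z hz => by
    refine Nat.lt_succ_iff.1 ((Submodule.finrank_lt fun k => hr z hz ?_).trans_eq (by simp))
    have k1 := LinearMap.range_eq_top.1 k
    rw [A.symm.comp_fderiv] at k1
    exact fun v => (k1 (A.symm v)).imp fun u hu => A.symm.injective hu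
  have h2 : BddAbove (rk '' W) := ⟨r, by rintro _ ⟨z, hz, rfl⟩; exact h1 z hz⟩
  obtain ⟨z, hz, h3⟩ := Nat.sSup_mem (hne.image rk) h2
  obtain ⟨b, F', b1, -, b2, -, b3⟩ := P284.H619.exists_nf (F := A.symm ∘ φ) (R := rk z)
    ((A.symm.analyticAt _).comp (hφ z hz))
    ((hW.eventually_mem hz).mono fun w hw => h3 ▸ le_csSup h2 ⟨w, hw, rfl⟩) rfl
  let π : Cm r →ₗ[ℂ] Cm (rk z) := LinearMap.funLeft ℂ ℂ (Fin.castLE (h1 z hz))
  obtain ⟨ι, hι⟩ := π.exists_rightInverse_of_surjective (LinearMap.range_eq_top.2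
    (LinearMap.funLeft_surjective_of_injective _ _ _ (Fin.castLE_injective _)))
  have h4 : ∀ v, π (ι v) = v := fun v => LinearMap.congr_fun hι v
  refine ⟨z, hz, fun w => ι (b w), fun v => A (F' (π v)),
    ((LinearMap.toContinuousLinearMap ι).analyticAt _).comp b1, (A.analyticAt _).comp
      (b2.comp_of_eq ((LinearMap.toContinuousLinearMap π).analyticAt _) (h4 _)),
    b3.mono fun w hw => ?_⟩
  simp only [h4, ← hw]
  simp

theorem poly_ne {d q : ℕ} {c : (Fin d → Fin q) → ℂ} (hc : c ≠ 0) (w : Cm d) :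
    ¬ ∀ᶠ v in 𝓝 w, ∑ β, c β * ∏ i, v i ^ (β i : ℕ) = 0 := fun h => hc (by
  classical
  let p : MvPolynomial (Fin d) ℂ := ∑ β : Fin d → Fin q,
    MvPolynomial.monomial (Finsupp.equivFunOnFinite.symm fun i => (β i : ℕ)) (c β)
  have h1 : ∀ v, MvPolynomial.eval v p = ∑ β, c β * ∏ i, v i ^ (β i : ℕ) := fun v => by
    simp only [p, map_sum, MvPolynomial.eval_monomial]
    exact Finset.sum_congr rfl fun β _ => by rw [Finsupp.prod_fintype _ _ (fun i => by simp)]; rfl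
  have h2 : p = 0 := MvPolynomial.funext fun v => congrFun
    ((AnalyticOnNhd.eval_mvPolynomial p).eq_of_eventuallyEq (g := fun _ => 0) analyticOnNhd_const
      (z₀ := w) (h.mono fun v hv => (h1 v).trans hv)) v
  funext β
  have h3 := congrArg (MvPolynomial.coeff (Finsupp.equivFunOnFinite.symm fun i => (β i : ℕ))) h2
  simp only [p, MvPolynomial.coeff_sum, MvPolynomial.coeff_monomial, MvPolynomial.coeff_zero] at h3
  rw [Finset.sum_eq_single β (fun γ _ hγ => if_neg fun k => hγ (funext fun i =>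
    Fin.ext (congrFun (Finsupp.equivFunOnFinite.symm.injective k) i))) (by simp), if_pos rfl] at h3
  exact h3)

variable {n : ℕ} {Z : Type} [TopologicalSpace Z] [ChartedSpace (Cm n) Z]
  {U : Set Z} {Fr : (Z → ℂ) → Z → Prop} {d : ℕ} {F t t0 θ : Z → ℂ} {x : Z}

theorem Sec.hol (h : Frm n U Fr) (hF : Sec n U Fr d F) (hθ : Fr θ x) (hx : x ∈ U) :
    Hol n (fun y => F y * θ y ^ d) x :=
  let ⟨_, b1, b2⟩ := hF θ x hθ
  b1.congr ((b2.and (h.opn.eventually_mem hx)).mono fun _ k => (k.1 k.2).symm)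

theorem Sec.ne_near (h : Frm n U Fr) (h0 : Sec n U Fr 1 t0) (hx : x ∈ U) (k : t0 x ≠ 0) :
    ∀ᶠ y in 𝓝 x, t0 y ≠ 0 :=
  let ⟨θ, hθ⟩ := h.ex x
  ((h0.hol h hθ hx).ne_near (mul_ne_zero k (pow_ne_zero 1 (h.ne θ x hθ hx)))).mono
    fun _ k => left_ne_zero_of_mul k

theorem Sec.quot (h : Frm n U Fr) (ht : Sec n U Fr 1 t) (h0 : Sec n U Fr 1 t0) (hx : x ∈ U)
    (k : t0 x ≠ 0) : Hol n (fun y => t y / t0 y) x := by
  obtain ⟨θ, hθ⟩ := h.ex x
  refine ((ht.hol h hθ hx).div (h0.hol h hθ hx)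
    (mul_ne_zero k (pow_ne_zero 1 (h.ne θ x hθ hx)))).congr ?_
  filter_upwards [h.near θ x hθ, h.opn.eventually_mem hx] with y k1 k2
  exact mul_div_mul_right _ _ (pow_ne_zero 1 (h.ne θ y k1 k2))

variable [IsManifold 𝓘(ℂ, Cm n) ω Z] [T2Space Z] [CompactSpace Z]

theorem dep (h : Frm n U Fr) : ∃ K : ℕ, ∀ N, K < N → ∀ s : Fin N → Z → ℂ,
    (∀ b, Sec n U Fr 1 (s b)) → ∃ a : Fin N → ℂ, a ≠ 0 ∧ ∀ y ∈ U, ∑ b, a b * s b y = 0 := by
  obtain ⟨T, e, c, θ, m0, h1, h2⟩ := core h (fun _ _ => True)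
    fun _ _ W _ ⟨c, hc⟩ _ => ⟨c, hc, trivial⟩
  refine ⟨T.card * (m0 * 1 + 1) ^ n, fun N hN s hs => ?_⟩
  obtain ⟨a, a1, a2⟩ := kill (A := T) (I := Fin N) (h := m0 * 1 + 1) (fun a => e a (c a))
    (fun a β z => s β ((e a).symm z) * θ a ((e a).symm z) ^ 1)
    (fun a β => (hs β).hol h (h1 a).2.2.2 (h1 a).2.1 _ (h1 a).1) (by simpa using hN)
  refine ⟨a, a1, h2 1 _ (Sec.lin a hs) fun b hb => (a2 ⟨b, hb⟩).congr_left fun z => ?_⟩
  simp only [Finset.sum_mul, mul_assoc]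

theorem siegel (h : Frm n U Fr) {r : ℕ} {t : Fin (r + 1) → Z → ℂ} (h0 : Sec n U Fr 1 t0)
    (ht : ∀ i, Sec n U Fr 1 (t i)) (hr : ∀ e x, At e x → x ∈ U → t0 x ≠ 0 →
      ¬ Surjective (fderiv ℂ (fun (z : Cm n) i => t i (e.symm z) / t0 (e.symm z)) (e x))) :
    ∃ (q : ℕ) (c : (Fin (r + 1) → Fin q) → ℂ), c ≠ 0 ∧ ∀ y ∈ U, t0 y ≠ 0 →
      ∑ β, c β * ∏ i, (t i y / t0 y) ^ (β i : ℕ) = 0 := by
  obtain ⟨T, e, c, θ, m0, h1, h2⟩ := core h (fun e c => ∃ (β : Cm n → Cm r)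
      (ψ : Cm r → Cm (r + 1)), AnalyticAt ℂ β (e c) ∧ AnalyticAt ℂ ψ (β (e c)) ∧ ∀ᶠ z in 𝓝 (e c),
        t0 (e.symm z) ≠ 0 → (fun i => t i (e.symm z) / t0 (e.symm z)) = ψ (β z))
    fun e he W hW ⟨c, hc⟩ hs => by
      by_cases k : ∀ y ∈ W, t0 y = 0
      · exact ⟨c, hc, fun _ => 0, fun _ => 0, analyticAt_const, analyticAt_const,
          ((At.ev ⟨he, (hs hc).1⟩).2 (hW.eventually_mem hc)).mono fun z hz k' => (k' (k _ hz)).elim⟩
      push Not at k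
      obtain ⟨y, hy, k⟩ := k
      have k1 : IsOpen {y | y ∈ W ∧ t0 y ≠ 0} := isOpen_iff_eventually.2 fun y hy =>
        (hW.eventually_mem hy.1).and (h0.ne_near h (hs hy.1).2 hy.2)
      obtain ⟨z, hz, β, ψ, k2, k3, k4⟩ := gen_flat (e.isOpen_inter_preimage_symm k1)
        ⟨e y, e.map_source (hs hy).1, by simpa [e.left_inv (hs hy).1] using ⟨hy, k⟩⟩
        (φ := fun (z : Cm n) i => t i (e.symm z) / t0 (e.symm z))
        (fun z hz => analyticAt_pi_iff.2 fun i => by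
          simpa only [e.right_inv hz.1] using
            (ht i).quot h h0 (hs hz.2.1).2 hz.2.2 e ⟨he, e.map_target hz.1⟩)
        fun z hz => by
          simpa only [e.right_inv hz.1] using
            hr e _ ⟨he, e.map_target hz.1⟩ (hs hz.2.1).2 hz.2.2
      refine ⟨e.symm z, hz.2.1, β, ψ, ?_⟩
      rw [e.right_inv hz.1]
      exact ⟨k2, k3, k4.mono fun _ k _ => k⟩
  choose β ψ b1 b2 b3 using fun a => (h1 a).2.2.1
  obtain ⟨q, hq, hqq⟩ := exists_q T.card m0 r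
  obtain ⟨a, a1, a2⟩ := kill (A := T) (I := Fin (r + 1) → Fin q) (h := m0 * ((r + 1) * q) + 1)
    (fun a => β a (e a (c a))) (fun a γ v => ∏ i, ψ a v i ^ (γ i : ℕ))
    (fun a γ => Finset.analyticAt_fun_prod _ fun i _ => (analyticAt_pi_iff.1 (b2 a) i).fun_pow _)
    (by simpa using hqq)
  have hγ : ∀ γ : Fin (r + 1) → Fin q, ∑ i, (γ i : ℕ) < (r + 1) * q := fun γ =>
    (Finset.sum_lt_sum_of_nonempty Finset.univ_nonempty fun i _ => (γ i).2).trans_eq (by simp)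
  let F : Z → ℂ := fun y =>
    ∑ γ, a γ * ((∏ i, t i y ^ (γ i : ℕ)) * t0 y ^ ((r + 1) * q - ∑ i, (γ i : ℕ)))
  have h3 : ∀ y, t0 y ≠ 0 →
      F y = t0 y ^ ((r + 1) * q) * ∑ γ, a γ * ∏ i, (t i y / t0 y) ^ (γ i : ℕ) := fun y hy => by
    rw [Finset.mul_sum]
    refine Finset.sum_congr rfl fun γ _ => ?_
    simp only [div_pow]
    rw [Finset.prod_div_distrib, Finset.prod_pow_eq_pow_sum, pow_sub₀ _ hy (hγ γ).le]
    ring
  have h4 : Sec n U Fr ((r + 1) * q) F := Sec.lin a fun γ => by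
    have := (Sec.prod Finset.univ fun i => (ht i).pow (γ i)).mul
      (h0.pow ((r + 1) * q - ∑ i, (γ i : ℕ)))
    rwa [Nat.add_sub_cancel' (hγ γ).le] at this
  refine ⟨q, a, a1, fun y hy k => (mul_eq_zero.1 ((h3 y k).symm.trans
    (h2 _ F h4 (fun b hb => ?_) y hy))).resolve_left (pow_ne_zero _ k)⟩
  have k1 := (((h0.hol h (h1 b).2.2.2 (h1 b).2.1).pow ((r + 1) * q)) _
    (h1 b).1).continuousAt.isBigO_one ℝ
  have k2 := ((a2 ⟨b, hb⟩).comp_tendsto (b1 b).continuousAt).trans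
    (((b1 b).differentiableAt.hasFDerivAt.isBigO_sub.norm_norm).pow _)
  refine (k1.mul k2).congr' ((b3 b).mono fun z hz => ?_) (.of_forall fun z => one_mul _)
  by_cases k3 : t0 ((e b).symm z) = 0
  · have k4 : F ((e b).symm z) = 0 := Finset.sum_eq_zero fun γ _ => by
      rw [k3, zero_pow (Nat.sub_ne_zero_of_lt (hγ γ)), mul_zero, mul_zero]
    simp [k3, k4, hq.ne']
  · simp only [comp, ← hz k3, h3 _ k3]
    ring

end Vale.Agent.P281W55
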